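import Vale.Agent.P103F2.Main
import Vale.Agent.P103W33.Fin

/-!
# P103: Shub's entropy conjecture for `C^1` maps fails, with the objects of the problem text
-/

namespace Vale.Agent.Results.P103.ASpectralRadius

open Vale.Agent.P103F2 Filter Topology
open scoped Manifold

theorem result :
    (∀ (m : ℕ) (M : Type) [TopologicalSpace M] [ChartedSpace (EuclideanSpace ℝ (Fin m)) M],
      IsClosedManifold m M → ∀ f : C(M, M),
        (∃ d : MetricSpace M, Compatible d) ∧
        (∀ d : MetricSpace M, Compatible d →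
          (∀ n, ∀ ε > 0, IsGreatest (sizes d f n ε) (sep d f n ε)) ∧
          Tendsto (growth d f) (𝓝[>] 0) (𝓝 (htop d f)) ∧
          ∀ d' : MetricSpace M, Compatible d' → htop d' f = htop d f) ∧
        FiniteDimensional ℝ (Hstar m M) ∧ (∀ k > m, Subsingleton ((H k).obj (TopCat.of M))) ∧
        IsGreatest (moduli (fstar m f)) (rho (fstar m f)) ∧ 1 ≤ rho (fstar m f)) ∧
    (¬ ∀ (m : ℕ) (M : Type) [TopologicalSpace M] [ChartedSpace (EuclideanSpace ℝ (Fin m)) M],
      IsClosedManifold m M → ∀ d : MetricSpace M, Compatible d → ∀ f : C(M, M),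
        ContMDiff (𝓡 m) (𝓡 m) 1 f → (Real.log (rho (fstar m f)) : EReal) ≤ htop d f) ∧
    ∃ (m : ℕ) (M : Type) (_ : TopologicalSpace M)
      (_ : ChartedSpace (EuclideanSpace ℝ (Fin m)) M), IsClosedManifold m M ∧ ConnectedSpace M ∧
      ∀ R : ℝ, ∃ f : C(M, M), ContMDiff (𝓡 m) (𝓡 m) 1 f ∧
        (∀ d : MetricSpace M, Compatible d → htop d f = 0) ∧ R ≤ rho (fstar m f) := by
  refine ⟨fun m M _ _ hM f => ?_, fun h => ?_, counter⟩
  · obtain ⟨h1, h2⟩ := well_defined hM f
    obtain ⟨h3, -, h4, h5⟩ := id hM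
    exact ⟨exists_compatible hM, fun d hd => ⟨fun n _ => sep_greatest hd f.continuous n,
      growth_tendsto hd f.continuous, fun d' hd' =>
        le_antisymm (htop_le hd' hd f.continuous) (htop_le hd hd' f.continuous)⟩, h1,
      fun k hk => P103W33.van (𝓡 m) k (by rwa [finrank_euclideanSpace_fin]), h2⟩
  · obtain ⟨m, M, _, _, hM, -, h1⟩ := counter
    obtain ⟨f, h2, h3, h4⟩ := h1 2
    obtain ⟨d, hd⟩ := exists_compatible hM
    have h5 := h m M hM d hd f h2
    rw [h3 d hd, EReal.coe_nonpos] at h5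
    exact h5.not_gt (Real.log_pos (one_lt_two.trans_le h4))

end Vale.Agent.Results.P103.ASpectralRadius
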